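import Mathlib

/-!
# S0069: top-level reduction of the Borsuk statement in dimension 9 to a colouring statement

We use the Veronese image of `RP³`: `ver : ℝ⁴ → ℝ⁹`, the coordinates of `x xᵀ - I/4` in an
orthonormal basis of the traceless symmetric `4 × 4` matrices (Frobenius norm).  For unit vectors,
`dist (ver x) (ver y) ^ 2 = 2 - 2 (x·y)²`, so the diameter pairs are exactly the orthogonal pairs.

`Core` is the statement that ten colours cannot colour the unit vectors of `ℝ⁴` with a uniform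
margin from orthogonality on each class.  `result_of_core` is the target statement from `Core`.
-/

set_option autoImplicit false

namespace Crest.Agent.Borsuk

/-- The dot product on `ℝ⁴`, written out. -/
def dot4 (x y : Fin 4 → ℝ) : ℝ := x 0 * y 0 + x 1 * y 1 + x 2 * y 2 + x 3 * y 3

/-- Unit vectors of `ℝ⁴`. -/
def IsUnit4 (x : Fin 4 → ℝ) : Prop := dot4 x x = 1

/-- Ten colours cannot colour the unit vectors of `ℝ⁴` with a margin from orthogonality: for every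
`d > 0` and every colouring there are two unit vectors of one colour with `(x·y)² < d`. -/
def Core : Prop :=
  ∀ d : ℝ, 0 < d → ∀ c : (Fin 4 → ℝ) → Fin 10,
    ∃ x y : Fin 4 → ℝ, IsUnit4 x ∧ IsUnit4 y ∧ c x = c y ∧ dot4 x y ^ 2 < d

/-- The Veronese map in coordinates. -/
noncomputable def ver (x : Fin 4 → ℝ) : EuclideanSpace ℝ (Fin 9) :=
  !₂[√2 * (x 0 * x 1), √2 * (x 0 * x 2), √2 * (x 0 * x 3), √2 * (x 1 * x 2), √2 * (x 1 * x 3),
    √2 * (x 2 * x 3),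
    (x 0 ^ 2 + x 1 ^ 2 - x 2 ^ 2 - x 3 ^ 2) / 2, (x 0 ^ 2 - x 1 ^ 2 + x 2 ^ 2 - x 3 ^ 2) / 2,
    (x 0 ^ 2 - x 1 ^ 2 - x 2 ^ 2 + x 3 ^ 2) / 2]

lemma dist_ver_sq (x y : Fin 4 → ℝ) (hx : IsUnit4 x) (hy : IsUnit4 y) :
    dist (ver x) (ver y) ^ 2 = 2 - 2 * dot4 x y ^ 2 := by
  have h2 : (√2 : ℝ) ^ 2 = 2 := Real.sq_sqrt (by norm_num)
  rw [EuclideanSpace.dist_eq, Real.sq_sqrt (Finset.sum_nonneg fun _ _ => sq_nonneg _)]
  simp only [Fin.sum_univ_succ, Fin.sum_univ_zero, Real.dist_eq, sq_abs, ver]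
  simp
  have e : ∀ u v : ℝ, (√2 * u - √2 * v) ^ 2 = 2 * (u - v) ^ 2 := by
    intro u v
    have : (√2 * u - √2 * v) ^ 2 = (√2) ^ 2 * (u - v) ^ 2 := by ring
    rw [this, h2]
  simp only [e]
  unfold IsUnit4 dot4 at *
  generalize x 0 = a0 at *
  generalize x 1 = a1 at *
  generalize x 2 = a2 at *
  generalize x 3 = a3 at *
  generalize y 0 = b0 at *
  generalize y 1 = b1 at *
  generalize y 2 = b2 at *
  generalize y 3 = b3 at *
  have hA : a0 * a0 + a1 * a1 + a2 * a2 + a3 * a3 = 1 := hx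
  have hB : b0 * b0 + b1 * b1 + b2 * b2 + b3 * b3 = 1 := hy
  set A := a0 * a0 + a1 * a1 + a2 * a2 + a3 * a3 with hAdef
  set B := b0 * b0 + b1 * b1 + b2 * b2 + b3 * b3 with hBdef
  have key : 2 * (a0 * a1 - b0 * b1) ^ 2 + (2 * (a0 * a2 - b0 * b2) ^ 2 + (2 * (a0 * a3 - b0 * b3) ^ 2
      + (2 * (a1 * a2 - b1 * b2) ^ 2 + (2 * (a1 * a3 - b1 * b3) ^ 2 + (2 * (a2 * a3 - b2 * b3) ^ 2
      + (((a0 ^ 2 + a1 ^ 2 - a2 ^ 2 - a3 ^ 2) / 2 - (b0 ^ 2 + b1 ^ 2 - b2 ^ 2 - b3 ^ 2) / 2) ^ 2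
      + (((a0 ^ 2 - a1 ^ 2 + a2 ^ 2 - a3 ^ 2) / 2 - (b0 ^ 2 - b1 ^ 2 + b2 ^ 2 - b3 ^ 2) / 2) ^ 2
      + ((a0 ^ 2 - a1 ^ 2 - a2 ^ 2 + a3 ^ 2) / 2 - (b0 ^ 2 - b1 ^ 2 - b2 ^ 2 + b3 ^ 2) / 2) ^ 2)))))))
      = A ^ 2 + B ^ 2 - 2 * (a0 * b0 + a1 * b1 + a2 * b2 + a3 * b3) ^ 2 - ((A - B) / 2) ^ 2 := by
    rw [hAdef, hBdef]; ring
  rw [key, hA, hB]; ring

lemma exists_e0_e1 : ∃ x y : Fin 4 → ℝ, IsUnit4 x ∧ IsUnit4 y ∧ dot4 x y = 0 := by
  refine ⟨![1, 0, 0, 0], ![0, 1, 0, 0], ?_, ?_, ?_⟩ <;> simp [IsUnit4, dot4]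

/-- The set `S` of the statement is the Veronese image of the unit sphere. -/
def S : Set (EuclideanSpace ℝ (Fin 9)) := ver '' {x | IsUnit4 x}

lemma dist_le_sqrt_two {p q : EuclideanSpace ℝ (Fin 9)} (hp : p ∈ S) (hq : q ∈ S) :
    dist p q ≤ √2 := by
  obtain ⟨x, hx, rfl⟩ := hp
  obtain ⟨y, hy, rfl⟩ := hq
  apply Real.le_sqrt_of_sq_le
  rw [dist_ver_sq x y hx hy]
  nlinarith [sq_nonneg (dot4 x y)]

lemma S_bounded : Bornology.IsBounded S :=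
  Metric.isBounded_iff.2 ⟨√2, fun _ hp _ hq => dist_le_sqrt_two hp hq⟩

/-- The target statement follows from `Core`. -/
theorem result_of_core (h : Core) :
    ∃ S : Set (EuclideanSpace ℝ (Fin 9)), Bornology.IsBounded S ∧ S.Nontrivial ∧
      ∀ c : EuclideanSpace ℝ (Fin 9) → Fin 10, ∃ i : Fin 10,
        Metric.diam S ≤ Metric.diam (S ∩ c ⁻¹' {i}) := by
  obtain ⟨e0, e1, h0, h1, h01⟩ := exists_e0_e1
  have hde : dist (ver e0) (ver e1) ^ 2 = 2 := by rw [dist_ver_sq e0 e1 h0 h1, h01]; norm_num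
  have hmem0 : ver e0 ∈ S := ⟨e0, h0, rfl⟩
  have hmem1 : ver e1 ∈ S := ⟨e1, h1, rfl⟩
  refine ⟨S, S_bounded, ⟨ver e0, hmem0, ver e1, hmem1, ?_⟩, ?_⟩
  · intro he
    rw [he, dist_self] at hde
    norm_num at hde
  intro c
  by_contra hcon
  push Not at hcon
  -- the largest class diameter
  let D' : ℝ := Finset.univ.sup' Finset.univ_nonempty fun i : Fin 10 => Metric.diam (S ∩ c ⁻¹' {i})
  have hD'lt : D' < Metric.diam S := (Finset.sup'_lt_iff _).2 fun i _ => hcon i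
  have hD'nn : 0 ≤ D' :=
    le_trans Metric.diam_nonneg (Finset.le_sup' (fun i : Fin 10 => Metric.diam (S ∩ c ⁻¹' {i}))
      (Finset.mem_univ (0 : Fin 10)))
  have hdiam : Metric.diam S ≤ √2 :=
    Metric.diam_le_of_forall_dist_le (Real.sqrt_nonneg _) fun _ hp _ hq => dist_le_sqrt_two hp hq
  have hD'2 : D' ^ 2 < 2 := by
    have : D' < √2 := lt_of_lt_of_le hD'lt hdiam
    have h3 : D' ^ 2 < (√2) ^ 2 := by
      apply pow_lt_pow_left₀ this hD'nn (by norm_num)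
    rwa [Real.sq_sqrt (by norm_num)] at h3
  obtain ⟨x, y, hx, hy, hcol, hlt⟩ := h (1 - D' ^ 2 / 2) (by linarith) (fun z => c (ver z))
  have hpx : ver x ∈ S ∩ c ⁻¹' {c (ver x)} := ⟨⟨x, hx, rfl⟩, rfl⟩
  have hpy : ver y ∈ S ∩ c ⁻¹' {c (ver x)} := ⟨⟨y, hy, rfl⟩, hcol.symm⟩
  have hb : Bornology.IsBounded (S ∩ c ⁻¹' {c (ver x)}) := S_bounded.subset Set.inter_subset_left
  have h1 : dist (ver x) (ver y) ≤ D' :=
    le_trans (Metric.dist_le_diam_of_mem hb hpx hpy)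
      (Finset.le_sup' (fun i : Fin 10 => Metric.diam (S ∩ c ⁻¹' {i})) (Finset.mem_univ _))
  have h2 : dist (ver x) (ver y) ^ 2 ≤ D' ^ 2 := pow_le_pow_left₀ dist_nonneg h1 2
  rw [dist_ver_sq x y hx hy] at h2
  linarith

end Crest.Agent.Borsuk
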